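import Mathlib

/-! A triangular matrix algebra with four vertices. -/

namespace Vale.Agent.P195

open MulOpposite

/-- gluing data -/
structure Glue (k R T D : Type) [Field k] [Ring R] [Algebra k R] [Ring T] [Algebra k T]
    [AddCommGroup D] [Module k D] [Module R D] [Module Rᵐᵒᵖ D] where
  j : R →ₐ[k] T
  h : T →ₐ[k] T
  κ : T →ₗ[k] D
  h_j : ∀ r, h (j r) = j r
  κ_left : ∀ r t, r • κ t = κ (j r * t)
  κ_right : ∀ r t, op r • κ t = κ (t * j r)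

variable {k R T D : Type} [Field k] [Ring R] [Algebra k R] [Ring T] [Algebra k T]
    [AddCommGroup D] [Module k D] [Module R D] [Module Rᵐᵒᵖ D]

/-- lower triangular matrices -/
@[ext] structure Lam (G : Glue k R T D) : Type where
  x00 : R
  x11 : T
  x22 : T
  x33 : R
  x10 : T
  x21a : T
  x21b : T
  x20a : T
  x20b : T
  x32 : T
  x31 : T
  x30 : D

namespace Lam

variable {G : Glue k R T D}

/-- the tautological equivalence -/
def equiv : Lam G ≃ R × T × T × R × T × T × T × T × T × T × T × D where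
  toFun a := (a.x00, a.x11, a.x22, a.x33, a.x10, a.x21a, a.x21b, a.x20a, a.x20b, a.x32, a.x31, a.x30)
  invFun p := ⟨p.1, p.2.1, p.2.2.1, p.2.2.2.1, p.2.2.2.2.1, p.2.2.2.2.2.1, p.2.2.2.2.2.2.1, p.2.2.2.2.2.2.2.1, p.2.2.2.2.2.2.2.2.1, p.2.2.2.2.2.2.2.2.2.1, p.2.2.2.2.2.2.2.2.2.2.1, p.2.2.2.2.2.2.2.2.2.2.2⟩
  left_inv _ := rfl
  right_inv _ := rfl

instance : AddCommGroup (Lam G) := equiv.addCommGroup
instance : Module k (Lam G) := equiv.module k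
instance : Mul (Lam G) := ⟨fun a b =>
  { x00 := a.x00 * b.x00
    x11 := a.x11 * b.x11
    x22 := a.x22 * b.x22
    x33 := a.x33 * b.x33
    x10 := a.x11 * b.x10 + a.x10 * G.j b.x00
    x21a := a.x22 * b.x21a + a.x21a * b.x11
    x21b := G.h a.x22 * b.x21b + a.x21b * b.x11
    x20a := a.x22 * b.x20a + a.x21a * b.x10 + a.x20a * G.j b.x00
    x20b := G.h a.x22 * b.x20b + a.x21b * b.x10 + a.x20b * G.j b.x00
    x32 := G.j a.x33 * b.x32 + a.x32 * b.x22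
    x31 := G.j a.x33 * b.x31 + a.x32 * b.x21a + G.h a.x32 * b.x21b + a.x31 * b.x11
    x30 := a.x33 • b.x30 + G.κ (a.x32 * b.x20a + G.h a.x32 * b.x20b + a.x31 * b.x10) + op b.x00 • a.x30 }⟩
instance : One (Lam G) := ⟨⟨1, 1, 1, 1, 0, 0, 0, 0, 0, 0, 0, 0⟩⟩

@[simp] lemma add_x00 (a b : Lam G) : (a + b).x00 = a.x00 + b.x00 := rfl
@[simp] lemma sub_x00 (a b : Lam G) : (a - b).x00 = a.x00 - b.x00 := rfl
@[simp] lemma neg_x00 (a : Lam G) : (-a).x00 = -a.x00 := rfl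
@[simp] lemma zero_x00 : (0 : Lam G).x00 = 0 := rfl
@[simp] lemma one_x00 : (1 : Lam G).x00 = 1 := rfl
@[simp] lemma smul_x00 (c : k) (a : Lam G) : (c • a).x00 = c • a.x00 := rfl
@[simp] lemma mul_x00 (a b : Lam G) :
    (a * b).x00 = a.x00 * b.x00 := rfl
@[simp] lemma add_x11 (a b : Lam G) : (a + b).x11 = a.x11 + b.x11 := rfl
@[simp] lemma sub_x11 (a b : Lam G) : (a - b).x11 = a.x11 - b.x11 := rfl
@[simp] lemma neg_x11 (a : Lam G) : (-a).x11 = -a.x11 := rfl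
@[simp] lemma zero_x11 : (0 : Lam G).x11 = 0 := rfl
@[simp] lemma one_x11 : (1 : Lam G).x11 = 1 := rfl
@[simp] lemma smul_x11 (c : k) (a : Lam G) : (c • a).x11 = c • a.x11 := rfl
@[simp] lemma mul_x11 (a b : Lam G) :
    (a * b).x11 = a.x11 * b.x11 := rfl
@[simp] lemma add_x22 (a b : Lam G) : (a + b).x22 = a.x22 + b.x22 := rfl
@[simp] lemma sub_x22 (a b : Lam G) : (a - b).x22 = a.x22 - b.x22 := rfl
@[simp] lemma neg_x22 (a : Lam G) : (-a).x22 = -a.x22 := rfl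
@[simp] lemma zero_x22 : (0 : Lam G).x22 = 0 := rfl
@[simp] lemma one_x22 : (1 : Lam G).x22 = 1 := rfl
@[simp] lemma smul_x22 (c : k) (a : Lam G) : (c • a).x22 = c • a.x22 := rfl
@[simp] lemma mul_x22 (a b : Lam G) :
    (a * b).x22 = a.x22 * b.x22 := rfl
@[simp] lemma add_x33 (a b : Lam G) : (a + b).x33 = a.x33 + b.x33 := rfl
@[simp] lemma sub_x33 (a b : Lam G) : (a - b).x33 = a.x33 - b.x33 := rfl
@[simp] lemma neg_x33 (a : Lam G) : (-a).x33 = -a.x33 := rfl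
@[simp] lemma zero_x33 : (0 : Lam G).x33 = 0 := rfl
@[simp] lemma one_x33 : (1 : Lam G).x33 = 1 := rfl
@[simp] lemma smul_x33 (c : k) (a : Lam G) : (c • a).x33 = c • a.x33 := rfl
@[simp] lemma mul_x33 (a b : Lam G) :
    (a * b).x33 = a.x33 * b.x33 := rfl
@[simp] lemma add_x10 (a b : Lam G) : (a + b).x10 = a.x10 + b.x10 := rfl
@[simp] lemma sub_x10 (a b : Lam G) : (a - b).x10 = a.x10 - b.x10 := rfl
@[simp] lemma neg_x10 (a : Lam G) : (-a).x10 = -a.x10 := rfl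
@[simp] lemma zero_x10 : (0 : Lam G).x10 = 0 := rfl
@[simp] lemma one_x10 : (1 : Lam G).x10 = 0 := rfl
@[simp] lemma smul_x10 (c : k) (a : Lam G) : (c • a).x10 = c • a.x10 := rfl
@[simp] lemma mul_x10 (a b : Lam G) :
    (a * b).x10 = a.x11 * b.x10 + a.x10 * G.j b.x00 := rfl
@[simp] lemma add_x21a (a b : Lam G) : (a + b).x21a = a.x21a + b.x21a := rfl
@[simp] lemma sub_x21a (a b : Lam G) : (a - b).x21a = a.x21a - b.x21a := rfl
@[simp] lemma neg_x21a (a : Lam G) : (-a).x21a = -a.x21a := rfl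
@[simp] lemma zero_x21a : (0 : Lam G).x21a = 0 := rfl
@[simp] lemma one_x21a : (1 : Lam G).x21a = 0 := rfl
@[simp] lemma smul_x21a (c : k) (a : Lam G) : (c • a).x21a = c • a.x21a := rfl
@[simp] lemma mul_x21a (a b : Lam G) :
    (a * b).x21a = a.x22 * b.x21a + a.x21a * b.x11 := rfl
@[simp] lemma add_x21b (a b : Lam G) : (a + b).x21b = a.x21b + b.x21b := rfl
@[simp] lemma sub_x21b (a b : Lam G) : (a - b).x21b = a.x21b - b.x21b := rfl
@[simp] lemma neg_x21b (a : Lam G) : (-a).x21b = -a.x21b := rfl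
@[simp] lemma zero_x21b : (0 : Lam G).x21b = 0 := rfl
@[simp] lemma one_x21b : (1 : Lam G).x21b = 0 := rfl
@[simp] lemma smul_x21b (c : k) (a : Lam G) : (c • a).x21b = c • a.x21b := rfl
@[simp] lemma mul_x21b (a b : Lam G) :
    (a * b).x21b = G.h a.x22 * b.x21b + a.x21b * b.x11 := rfl
@[simp] lemma add_x20a (a b : Lam G) : (a + b).x20a = a.x20a + b.x20a := rfl
@[simp] lemma sub_x20a (a b : Lam G) : (a - b).x20a = a.x20a - b.x20a := rfl
@[simp] lemma neg_x20a (a : Lam G) : (-a).x20a = -a.x20a := rfl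
@[simp] lemma zero_x20a : (0 : Lam G).x20a = 0 := rfl
@[simp] lemma one_x20a : (1 : Lam G).x20a = 0 := rfl
@[simp] lemma smul_x20a (c : k) (a : Lam G) : (c • a).x20a = c • a.x20a := rfl
@[simp] lemma mul_x20a (a b : Lam G) :
    (a * b).x20a = a.x22 * b.x20a + a.x21a * b.x10 + a.x20a * G.j b.x00 := rfl
@[simp] lemma add_x20b (a b : Lam G) : (a + b).x20b = a.x20b + b.x20b := rfl
@[simp] lemma sub_x20b (a b : Lam G) : (a - b).x20b = a.x20b - b.x20b := rfl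
@[simp] lemma neg_x20b (a : Lam G) : (-a).x20b = -a.x20b := rfl
@[simp] lemma zero_x20b : (0 : Lam G).x20b = 0 := rfl
@[simp] lemma one_x20b : (1 : Lam G).x20b = 0 := rfl
@[simp] lemma smul_x20b (c : k) (a : Lam G) : (c • a).x20b = c • a.x20b := rfl
@[simp] lemma mul_x20b (a b : Lam G) :
    (a * b).x20b = G.h a.x22 * b.x20b + a.x21b * b.x10 + a.x20b * G.j b.x00 := rfl
@[simp] lemma add_x32 (a b : Lam G) : (a + b).x32 = a.x32 + b.x32 := rfl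
@[simp] lemma sub_x32 (a b : Lam G) : (a - b).x32 = a.x32 - b.x32 := rfl
@[simp] lemma neg_x32 (a : Lam G) : (-a).x32 = -a.x32 := rfl
@[simp] lemma zero_x32 : (0 : Lam G).x32 = 0 := rfl
@[simp] lemma one_x32 : (1 : Lam G).x32 = 0 := rfl
@[simp] lemma smul_x32 (c : k) (a : Lam G) : (c • a).x32 = c • a.x32 := rfl
@[simp] lemma mul_x32 (a b : Lam G) :
    (a * b).x32 = G.j a.x33 * b.x32 + a.x32 * b.x22 := rfl
@[simp] lemma add_x31 (a b : Lam G) : (a + b).x31 = a.x31 + b.x31 := rfl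
@[simp] lemma sub_x31 (a b : Lam G) : (a - b).x31 = a.x31 - b.x31 := rfl
@[simp] lemma neg_x31 (a : Lam G) : (-a).x31 = -a.x31 := rfl
@[simp] lemma zero_x31 : (0 : Lam G).x31 = 0 := rfl
@[simp] lemma one_x31 : (1 : Lam G).x31 = 0 := rfl
@[simp] lemma smul_x31 (c : k) (a : Lam G) : (c • a).x31 = c • a.x31 := rfl
@[simp] lemma mul_x31 (a b : Lam G) :
    (a * b).x31 = G.j a.x33 * b.x31 + a.x32 * b.x21a + G.h a.x32 * b.x21b + a.x31 * b.x11 := rfl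
@[simp] lemma add_x30 (a b : Lam G) : (a + b).x30 = a.x30 + b.x30 := rfl
@[simp] lemma sub_x30 (a b : Lam G) : (a - b).x30 = a.x30 - b.x30 := rfl
@[simp] lemma neg_x30 (a : Lam G) : (-a).x30 = -a.x30 := rfl
@[simp] lemma zero_x30 : (0 : Lam G).x30 = 0 := rfl
@[simp] lemma one_x30 : (1 : Lam G).x30 = 0 := rfl
@[simp] lemma smul_x30 (c : k) (a : Lam G) : (c • a).x30 = c • a.x30 := rfl
@[simp] lemma mul_x30 (a b : Lam G) :
    (a * b).x30 = a.x33 • b.x30 + G.κ (a.x32 * b.x20a + G.h a.x32 * b.x20b + a.x31 * b.x10) + op b.x00 • a.x30 := rfl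

variable [SMulCommClass R Rᵐᵒᵖ D]

lemma mul_assoc' (a b c : Lam G) : a * b * c = a * (b * c) := by
  ext <;> simp only [mul_x00, mul_x11, mul_x22, mul_x33, mul_x10, mul_x21a, mul_x21b, mul_x20a,
    mul_x20b, mul_x32, mul_x31, mul_x30, map_add, map_mul, mul_add, add_mul, smul_add, mul_assoc,
    G.h_j, G.κ_left, G.κ_right, op_mul, mul_smul, smul_comm a.x33 (op c.x00)] <;> abel

instance : Ring (Lam G) :=
  { (inferInstance : AddCommGroup (Lam G)) with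
    mul := (· * ·)
    one := 1
    mul_assoc := mul_assoc'
    one_mul := fun a => by ext <;> simp
    mul_one := fun a => by ext <;> simp
    zero_mul := fun a => by ext <;> simp
    mul_zero := fun a => by ext <;> simp
    left_distrib := fun a b c => by ext <;> simp [mul_add, add_smul] <;> abel
    right_distrib := fun a b c => by ext <;> simp [add_mul, add_smul] <;> abel }

variable [IsScalarTower k R D] [IsScalarTower k Rᵐᵒᵖ D] [SMulCommClass k R D]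
  [SMulCommClass k Rᵐᵒᵖ D]

instance : Algebra k (Lam G) :=
  Algebra.ofModule (fun c a b => by ext <;> simp [smul_comm c])
    (fun c a b => by ext <;> simp [smul_comm c])

instance [FiniteDimensional k R] [FiniteDimensional k T] [FiniteDimensional k D] :
    FiniteDimensional k (Lam G) :=
  ({ equiv with map_add' := fun _ _ => rfl, map_smul' := fun _ _ => rfl } :
    Lam G ≃ₗ[k] R × T × T × R × T × T × T × T × T × T × T × D).symm.finiteDimensional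

omit [IsScalarTower k R D] [IsScalarTower k Rᵐᵒᵖ D] [SMulCommClass k R D]
  [SMulCommClass k Rᵐᵒᵖ D]

/-- diagonal inclusion -/
def φ00 : R →ₙ+* Lam G where
  toFun t := ⟨t, 0, 0, 0, 0, 0, 0, 0, 0, 0, 0, 0⟩
  map_zero' := rfl
  map_add' a b := by ext <;> simp
  map_mul' a b := by ext <;> simp
@[simp] lemma φ00_x00 (t : R) : (φ00 t : Lam G).x00 = t := rfl
@[simp] lemma φ00_x11 (t : R) : (φ00 t : Lam G).x11 = 0 := rfl
@[simp] lemma φ00_x22 (t : R) : (φ00 t : Lam G).x22 = 0 := rfl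
@[simp] lemma φ00_x33 (t : R) : (φ00 t : Lam G).x33 = 0 := rfl
@[simp] lemma φ00_x10 (t : R) : (φ00 t : Lam G).x10 = 0 := rfl
@[simp] lemma φ00_x21a (t : R) : (φ00 t : Lam G).x21a = 0 := rfl
@[simp] lemma φ00_x21b (t : R) : (φ00 t : Lam G).x21b = 0 := rfl
@[simp] lemma φ00_x20a (t : R) : (φ00 t : Lam G).x20a = 0 := rfl
@[simp] lemma φ00_x20b (t : R) : (φ00 t : Lam G).x20b = 0 := rfl
@[simp] lemma φ00_x32 (t : R) : (φ00 t : Lam G).x32 = 0 := rfl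
@[simp] lemma φ00_x31 (t : R) : (φ00 t : Lam G).x31 = 0 := rfl
@[simp] lemma φ00_x30 (t : R) : (φ00 t : Lam G).x30 = 0 := rfl
/-- a matrix entry -/
def π00 : Lam G →+ R := ⟨⟨x00, rfl⟩, fun _ _ => rfl⟩
@[simp] lemma π00_apply (a : Lam G) : π00 a = a.x00 := rfl

/-- diagonal inclusion -/
def φ11 : T →ₙ+* Lam G where
  toFun t := ⟨0, t, 0, 0, 0, 0, 0, 0, 0, 0, 0, 0⟩
  map_zero' := rfl
  map_add' a b := by ext <;> simp
  map_mul' a b := by ext <;> simp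
@[simp] lemma φ11_x00 (t : T) : (φ11 t : Lam G).x00 = 0 := rfl
@[simp] lemma φ11_x11 (t : T) : (φ11 t : Lam G).x11 = t := rfl
@[simp] lemma φ11_x22 (t : T) : (φ11 t : Lam G).x22 = 0 := rfl
@[simp] lemma φ11_x33 (t : T) : (φ11 t : Lam G).x33 = 0 := rfl
@[simp] lemma φ11_x10 (t : T) : (φ11 t : Lam G).x10 = 0 := rfl
@[simp] lemma φ11_x21a (t : T) : (φ11 t : Lam G).x21a = 0 := rfl
@[simp] lemma φ11_x21b (t : T) : (φ11 t : Lam G).x21b = 0 := rfl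
@[simp] lemma φ11_x20a (t : T) : (φ11 t : Lam G).x20a = 0 := rfl
@[simp] lemma φ11_x20b (t : T) : (φ11 t : Lam G).x20b = 0 := rfl
@[simp] lemma φ11_x32 (t : T) : (φ11 t : Lam G).x32 = 0 := rfl
@[simp] lemma φ11_x31 (t : T) : (φ11 t : Lam G).x31 = 0 := rfl
@[simp] lemma φ11_x30 (t : T) : (φ11 t : Lam G).x30 = 0 := rfl
/-- a matrix entry -/
def π11 : Lam G →+ T := ⟨⟨x11, rfl⟩, fun _ _ => rfl⟩
@[simp] lemma π11_apply (a : Lam G) : π11 a = a.x11 := rfl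

/-- diagonal inclusion -/
def φ22 : T →ₙ+* Lam G where
  toFun t := ⟨0, 0, t, 0, 0, 0, 0, 0, 0, 0, 0, 0⟩
  map_zero' := rfl
  map_add' a b := by ext <;> simp
  map_mul' a b := by ext <;> simp
@[simp] lemma φ22_x00 (t : T) : (φ22 t : Lam G).x00 = 0 := rfl
@[simp] lemma φ22_x11 (t : T) : (φ22 t : Lam G).x11 = 0 := rfl
@[simp] lemma φ22_x22 (t : T) : (φ22 t : Lam G).x22 = t := rfl
@[simp] lemma φ22_x33 (t : T) : (φ22 t : Lam G).x33 = 0 := rfl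
@[simp] lemma φ22_x10 (t : T) : (φ22 t : Lam G).x10 = 0 := rfl
@[simp] lemma φ22_x21a (t : T) : (φ22 t : Lam G).x21a = 0 := rfl
@[simp] lemma φ22_x21b (t : T) : (φ22 t : Lam G).x21b = 0 := rfl
@[simp] lemma φ22_x20a (t : T) : (φ22 t : Lam G).x20a = 0 := rfl
@[simp] lemma φ22_x20b (t : T) : (φ22 t : Lam G).x20b = 0 := rfl
@[simp] lemma φ22_x32 (t : T) : (φ22 t : Lam G).x32 = 0 := rfl
@[simp] lemma φ22_x31 (t : T) : (φ22 t : Lam G).x31 = 0 := rfl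
@[simp] lemma φ22_x30 (t : T) : (φ22 t : Lam G).x30 = 0 := rfl
/-- a matrix entry -/
def π22 : Lam G →+ T := ⟨⟨x22, rfl⟩, fun _ _ => rfl⟩
@[simp] lemma π22_apply (a : Lam G) : π22 a = a.x22 := rfl

/-- diagonal inclusion -/
def φ33 : R →ₙ+* Lam G where
  toFun t := ⟨0, 0, 0, t, 0, 0, 0, 0, 0, 0, 0, 0⟩
  map_zero' := rfl
  map_add' a b := by ext <;> simp
  map_mul' a b := by ext <;> simp
@[simp] lemma φ33_x00 (t : R) : (φ33 t : Lam G).x00 = 0 := rfl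
@[simp] lemma φ33_x11 (t : R) : (φ33 t : Lam G).x11 = 0 := rfl
@[simp] lemma φ33_x22 (t : R) : (φ33 t : Lam G).x22 = 0 := rfl
@[simp] lemma φ33_x33 (t : R) : (φ33 t : Lam G).x33 = t := rfl
@[simp] lemma φ33_x10 (t : R) : (φ33 t : Lam G).x10 = 0 := rfl
@[simp] lemma φ33_x21a (t : R) : (φ33 t : Lam G).x21a = 0 := rfl
@[simp] lemma φ33_x21b (t : R) : (φ33 t : Lam G).x21b = 0 := rfl
@[simp] lemma φ33_x20a (t : R) : (φ33 t : Lam G).x20a = 0 := rfl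
@[simp] lemma φ33_x20b (t : R) : (φ33 t : Lam G).x20b = 0 := rfl
@[simp] lemma φ33_x32 (t : R) : (φ33 t : Lam G).x32 = 0 := rfl
@[simp] lemma φ33_x31 (t : R) : (φ33 t : Lam G).x31 = 0 := rfl
@[simp] lemma φ33_x30 (t : R) : (φ33 t : Lam G).x30 = 0 := rfl
/-- a matrix entry -/
def π33 : Lam G →+ R := ⟨⟨x33, rfl⟩, fun _ _ => rfl⟩
@[simp] lemma π33_apply (a : Lam G) : π33 a = a.x33 := rfl

/-- off-diagonal inclusion -/
def φ10 : T →+ Lam G where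
  toFun t := ⟨0, 0, 0, 0, t, 0, 0, 0, 0, 0, 0, 0⟩
  map_zero' := rfl
  map_add' a b := by ext <;> simp
@[simp] lemma φ10_x00 (t : T) : (φ10 t : Lam G).x00 = 0 := rfl
@[simp] lemma φ10_x11 (t : T) : (φ10 t : Lam G).x11 = 0 := rfl
@[simp] lemma φ10_x22 (t : T) : (φ10 t : Lam G).x22 = 0 := rfl
@[simp] lemma φ10_x33 (t : T) : (φ10 t : Lam G).x33 = 0 := rfl
@[simp] lemma φ10_x10 (t : T) : (φ10 t : Lam G).x10 = t := rfl
@[simp] lemma φ10_x21a (t : T) : (φ10 t : Lam G).x21a = 0 := rfl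
@[simp] lemma φ10_x21b (t : T) : (φ10 t : Lam G).x21b = 0 := rfl
@[simp] lemma φ10_x20a (t : T) : (φ10 t : Lam G).x20a = 0 := rfl
@[simp] lemma φ10_x20b (t : T) : (φ10 t : Lam G).x20b = 0 := rfl
@[simp] lemma φ10_x32 (t : T) : (φ10 t : Lam G).x32 = 0 := rfl
@[simp] lemma φ10_x31 (t : T) : (φ10 t : Lam G).x31 = 0 := rfl
@[simp] lemma φ10_x30 (t : T) : (φ10 t : Lam G).x30 = 0 := rfl
/-- a matrix entry -/
def π10 : Lam G →+ T := ⟨⟨x10, rfl⟩, fun _ _ => rfl⟩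
@[simp] lemma π10_apply (a : Lam G) : π10 a = a.x10 := rfl

/-- off-diagonal inclusion -/
def φ21a : T →+ Lam G where
  toFun t := ⟨0, 0, 0, 0, 0, t, 0, 0, 0, 0, 0, 0⟩
  map_zero' := rfl
  map_add' a b := by ext <;> simp
@[simp] lemma φ21a_x00 (t : T) : (φ21a t : Lam G).x00 = 0 := rfl
@[simp] lemma φ21a_x11 (t : T) : (φ21a t : Lam G).x11 = 0 := rfl
@[simp] lemma φ21a_x22 (t : T) : (φ21a t : Lam G).x22 = 0 := rfl
@[simp] lemma φ21a_x33 (t : T) : (φ21a t : Lam G).x33 = 0 := rfl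
@[simp] lemma φ21a_x10 (t : T) : (φ21a t : Lam G).x10 = 0 := rfl
@[simp] lemma φ21a_x21a (t : T) : (φ21a t : Lam G).x21a = t := rfl
@[simp] lemma φ21a_x21b (t : T) : (φ21a t : Lam G).x21b = 0 := rfl
@[simp] lemma φ21a_x20a (t : T) : (φ21a t : Lam G).x20a = 0 := rfl
@[simp] lemma φ21a_x20b (t : T) : (φ21a t : Lam G).x20b = 0 := rfl
@[simp] lemma φ21a_x32 (t : T) : (φ21a t : Lam G).x32 = 0 := rfl
@[simp] lemma φ21a_x31 (t : T) : (φ21a t : Lam G).x31 = 0 := rfl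
@[simp] lemma φ21a_x30 (t : T) : (φ21a t : Lam G).x30 = 0 := rfl
/-- a matrix entry -/
def π21a : Lam G →+ T := ⟨⟨x21a, rfl⟩, fun _ _ => rfl⟩
@[simp] lemma π21a_apply (a : Lam G) : π21a a = a.x21a := rfl

/-- off-diagonal inclusion -/
def φ21b : T →+ Lam G where
  toFun t := ⟨0, 0, 0, 0, 0, 0, t, 0, 0, 0, 0, 0⟩
  map_zero' := rfl
  map_add' a b := by ext <;> simp
@[simp] lemma φ21b_x00 (t : T) : (φ21b t : Lam G).x00 = 0 := rfl
@[simp] lemma φ21b_x11 (t : T) : (φ21b t : Lam G).x11 = 0 := rfl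
@[simp] lemma φ21b_x22 (t : T) : (φ21b t : Lam G).x22 = 0 := rfl
@[simp] lemma φ21b_x33 (t : T) : (φ21b t : Lam G).x33 = 0 := rfl
@[simp] lemma φ21b_x10 (t : T) : (φ21b t : Lam G).x10 = 0 := rfl
@[simp] lemma φ21b_x21a (t : T) : (φ21b t : Lam G).x21a = 0 := rfl
@[simp] lemma φ21b_x21b (t : T) : (φ21b t : Lam G).x21b = t := rfl
@[simp] lemma φ21b_x20a (t : T) : (φ21b t : Lam G).x20a = 0 := rfl
@[simp] lemma φ21b_x20b (t : T) : (φ21b t : Lam G).x20b = 0 := rfl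
@[simp] lemma φ21b_x32 (t : T) : (φ21b t : Lam G).x32 = 0 := rfl
@[simp] lemma φ21b_x31 (t : T) : (φ21b t : Lam G).x31 = 0 := rfl
@[simp] lemma φ21b_x30 (t : T) : (φ21b t : Lam G).x30 = 0 := rfl
/-- a matrix entry -/
def π21b : Lam G →+ T := ⟨⟨x21b, rfl⟩, fun _ _ => rfl⟩
@[simp] lemma π21b_apply (a : Lam G) : π21b a = a.x21b := rfl

/-- off-diagonal inclusion -/
def φ20a : T →+ Lam G where
  toFun t := ⟨0, 0, 0, 0, 0, 0, 0, t, 0, 0, 0, 0⟩
  map_zero' := rfl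
  map_add' a b := by ext <;> simp
@[simp] lemma φ20a_x00 (t : T) : (φ20a t : Lam G).x00 = 0 := rfl
@[simp] lemma φ20a_x11 (t : T) : (φ20a t : Lam G).x11 = 0 := rfl
@[simp] lemma φ20a_x22 (t : T) : (φ20a t : Lam G).x22 = 0 := rfl
@[simp] lemma φ20a_x33 (t : T) : (φ20a t : Lam G).x33 = 0 := rfl
@[simp] lemma φ20a_x10 (t : T) : (φ20a t : Lam G).x10 = 0 := rfl
@[simp] lemma φ20a_x21a (t : T) : (φ20a t : Lam G).x21a = 0 := rfl
@[simp] lemma φ20a_x21b (t : T) : (φ20a t : Lam G).x21b = 0 := rfl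
@[simp] lemma φ20a_x20a (t : T) : (φ20a t : Lam G).x20a = t := rfl
@[simp] lemma φ20a_x20b (t : T) : (φ20a t : Lam G).x20b = 0 := rfl
@[simp] lemma φ20a_x32 (t : T) : (φ20a t : Lam G).x32 = 0 := rfl
@[simp] lemma φ20a_x31 (t : T) : (φ20a t : Lam G).x31 = 0 := rfl
@[simp] lemma φ20a_x30 (t : T) : (φ20a t : Lam G).x30 = 0 := rfl
/-- a matrix entry -/
def π20a : Lam G →+ T := ⟨⟨x20a, rfl⟩, fun _ _ => rfl⟩
@[simp] lemma π20a_apply (a : Lam G) : π20a a = a.x20a := rfl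

/-- off-diagonal inclusion -/
def φ20b : T →+ Lam G where
  toFun t := ⟨0, 0, 0, 0, 0, 0, 0, 0, t, 0, 0, 0⟩
  map_zero' := rfl
  map_add' a b := by ext <;> simp
@[simp] lemma φ20b_x00 (t : T) : (φ20b t : Lam G).x00 = 0 := rfl
@[simp] lemma φ20b_x11 (t : T) : (φ20b t : Lam G).x11 = 0 := rfl
@[simp] lemma φ20b_x22 (t : T) : (φ20b t : Lam G).x22 = 0 := rfl
@[simp] lemma φ20b_x33 (t : T) : (φ20b t : Lam G).x33 = 0 := rfl
@[simp] lemma φ20b_x10 (t : T) : (φ20b t : Lam G).x10 = 0 := rfl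
@[simp] lemma φ20b_x21a (t : T) : (φ20b t : Lam G).x21a = 0 := rfl
@[simp] lemma φ20b_x21b (t : T) : (φ20b t : Lam G).x21b = 0 := rfl
@[simp] lemma φ20b_x20a (t : T) : (φ20b t : Lam G).x20a = 0 := rfl
@[simp] lemma φ20b_x20b (t : T) : (φ20b t : Lam G).x20b = t := rfl
@[simp] lemma φ20b_x32 (t : T) : (φ20b t : Lam G).x32 = 0 := rfl
@[simp] lemma φ20b_x31 (t : T) : (φ20b t : Lam G).x31 = 0 := rfl
@[simp] lemma φ20b_x30 (t : T) : (φ20b t : Lam G).x30 = 0 := rfl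
/-- a matrix entry -/
def π20b : Lam G →+ T := ⟨⟨x20b, rfl⟩, fun _ _ => rfl⟩
@[simp] lemma π20b_apply (a : Lam G) : π20b a = a.x20b := rfl

/-- off-diagonal inclusion -/
def φ32 : T →+ Lam G where
  toFun t := ⟨0, 0, 0, 0, 0, 0, 0, 0, 0, t, 0, 0⟩
  map_zero' := rfl
  map_add' a b := by ext <;> simp
@[simp] lemma φ32_x00 (t : T) : (φ32 t : Lam G).x00 = 0 := rfl
@[simp] lemma φ32_x11 (t : T) : (φ32 t : Lam G).x11 = 0 := rfl
@[simp] lemma φ32_x22 (t : T) : (φ32 t : Lam G).x22 = 0 := rfl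
@[simp] lemma φ32_x33 (t : T) : (φ32 t : Lam G).x33 = 0 := rfl
@[simp] lemma φ32_x10 (t : T) : (φ32 t : Lam G).x10 = 0 := rfl
@[simp] lemma φ32_x21a (t : T) : (φ32 t : Lam G).x21a = 0 := rfl
@[simp] lemma φ32_x21b (t : T) : (φ32 t : Lam G).x21b = 0 := rfl
@[simp] lemma φ32_x20a (t : T) : (φ32 t : Lam G).x20a = 0 := rfl
@[simp] lemma φ32_x20b (t : T) : (φ32 t : Lam G).x20b = 0 := rfl
@[simp] lemma φ32_x32 (t : T) : (φ32 t : Lam G).x32 = t := rfl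
@[simp] lemma φ32_x31 (t : T) : (φ32 t : Lam G).x31 = 0 := rfl
@[simp] lemma φ32_x30 (t : T) : (φ32 t : Lam G).x30 = 0 := rfl
/-- a matrix entry -/
def π32 : Lam G →+ T := ⟨⟨x32, rfl⟩, fun _ _ => rfl⟩
@[simp] lemma π32_apply (a : Lam G) : π32 a = a.x32 := rfl

/-- off-diagonal inclusion -/
def φ31 : T →+ Lam G where
  toFun t := ⟨0, 0, 0, 0, 0, 0, 0, 0, 0, 0, t, 0⟩
  map_zero' := rfl
  map_add' a b := by ext <;> simp
@[simp] lemma φ31_x00 (t : T) : (φ31 t : Lam G).x00 = 0 := rfl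
@[simp] lemma φ31_x11 (t : T) : (φ31 t : Lam G).x11 = 0 := rfl
@[simp] lemma φ31_x22 (t : T) : (φ31 t : Lam G).x22 = 0 := rfl
@[simp] lemma φ31_x33 (t : T) : (φ31 t : Lam G).x33 = 0 := rfl
@[simp] lemma φ31_x10 (t : T) : (φ31 t : Lam G).x10 = 0 := rfl
@[simp] lemma φ31_x21a (t : T) : (φ31 t : Lam G).x21a = 0 := rfl
@[simp] lemma φ31_x21b (t : T) : (φ31 t : Lam G).x21b = 0 := rfl
@[simp] lemma φ31_x20a (t : T) : (φ31 t : Lam G).x20a = 0 := rfl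
@[simp] lemma φ31_x20b (t : T) : (φ31 t : Lam G).x20b = 0 := rfl
@[simp] lemma φ31_x32 (t : T) : (φ31 t : Lam G).x32 = 0 := rfl
@[simp] lemma φ31_x31 (t : T) : (φ31 t : Lam G).x31 = t := rfl
@[simp] lemma φ31_x30 (t : T) : (φ31 t : Lam G).x30 = 0 := rfl
/-- a matrix entry -/
def π31 : Lam G →+ T := ⟨⟨x31, rfl⟩, fun _ _ => rfl⟩
@[simp] lemma π31_apply (a : Lam G) : π31 a = a.x31 := rfl

/-- off-diagonal inclusion -/
def φ30 : D →+ Lam G where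
  toFun t := ⟨0, 0, 0, 0, 0, 0, 0, 0, 0, 0, 0, t⟩
  map_zero' := rfl
  map_add' a b := by ext <;> simp
@[simp] lemma φ30_x00 (t : D) : (φ30 t : Lam G).x00 = 0 := rfl
@[simp] lemma φ30_x11 (t : D) : (φ30 t : Lam G).x11 = 0 := rfl
@[simp] lemma φ30_x22 (t : D) : (φ30 t : Lam G).x22 = 0 := rfl
@[simp] lemma φ30_x33 (t : D) : (φ30 t : Lam G).x33 = 0 := rfl
@[simp] lemma φ30_x10 (t : D) : (φ30 t : Lam G).x10 = 0 := rfl
@[simp] lemma φ30_x21a (t : D) : (φ30 t : Lam G).x21a = 0 := rfl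
@[simp] lemma φ30_x21b (t : D) : (φ30 t : Lam G).x21b = 0 := rfl
@[simp] lemma φ30_x20a (t : D) : (φ30 t : Lam G).x20a = 0 := rfl
@[simp] lemma φ30_x20b (t : D) : (φ30 t : Lam G).x20b = 0 := rfl
@[simp] lemma φ30_x32 (t : D) : (φ30 t : Lam G).x32 = 0 := rfl
@[simp] lemma φ30_x31 (t : D) : (φ30 t : Lam G).x31 = 0 := rfl
@[simp] lemma φ30_x30 (t : D) : (φ30 t : Lam G).x30 = t := rfl
/-- a matrix entry -/
def π30 : Lam G →+ D := ⟨⟨x30, rfl⟩, fun _ _ => rfl⟩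
@[simp] lemma π30_apply (a : Lam G) : π30 a = a.x30 := rfl

end Lam

end Vale.Agent.P195
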